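import Vale.Agent.Lib.P058.Lines

/-!
The word criterion: a finite set of points is Ramsey as soon as, for each group and each map of the
reals to the group, some word with constants and slots (each slot used the same number of times)
takes a single value on all points of the set.
-/

namespace Vale.Agent.Lib.P058

open Filter

attribute [local instance] Ultrafilter.semigroup

/-- Slot weights of a word. -/
def wordWeight {G : Type*} {d : ℕ} (w : List (G × Fin d)) : Fin d → ℕ :=
  fun i => (w.map Prod.snd).count i

/-- Value of the word `g₁ φ(x_{i₁}) g₂ φ(x_{i₂}) ⋯` at the point `x`. -/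
def wordEval {G : Type*} [Group G] {d : ℕ} (φ : ℝ → G) (x : Fin d → ℝ) (w : List (G × Fin d)) : G :=
  (w.map (fun t => t.1 * φ (x t.2))).prod

theorem reach_word {K : Core (Ultrafilter Wd)} {d : ℕ} {X : Type*} [Finite X] (s : ℝ)
    (p : X → Fin d → ℝ) (w : List (Gam K × Fin d)) :
    Reach K (fun x i => s * p x i) (wordWeight w)
      (fun x => wordEval (fun t => letter K (s * t)) (p x) w) := by
  induction w with
  | nil =>
    have := Reach.const (K := K) (fun (x : X) (i : Fin d) => s * p x i) 1
    refine this.congr ?_ (fun x => rfl)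
    funext i
    simp [wordWeight]
  | cons t w ih =>
    have h1 := (Reach.const (K := K) (fun (x : X) (i : Fin d) => s * p x i) t.1).mul
      (Reach.letter (K := K) (fun (x : X) (i : Fin d) => s * p x i) t.2)
    refine (h1.mul ih).congr ?_ ?_
    · funext i
      simp only [wordWeight, Pi.add_apply, zero_add, List.map_cons, List.count_cons,
        Pi.single_apply, beq_iff_eq]
      by_cases h : i = t.2
      · simp [h]; omega
      · simp [h, Ne.symm h]
    · intro x
      simp [wordEval]

/-- **Word criterion.** Let `p` index a finite nonempty set of points of `ℝ^d`. Suppose that for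
each group `G` and each map `φ : ℝ → G` there is a word `g₁ φ(x_{i₁}) g₂ φ(x_{i₂}) ⋯` using each
coordinate slot exactly `m` times whose value in `G` is the same for all points `x` of the set.
Then the set is Ramsey. -/
theorem ramsey_of_word {d : ℕ} {X : Type*} [Finite X] [Nonempty X] (p : X → Fin d → ℝ) (m : ℕ)
    (hm : 0 < m)
    (H : ∀ (G : Type) [Group G] (φ : ℝ → G), ∃ w : List (G × Fin d),
      (∀ i, (w.map Prod.snd).count i = m) ∧ ∀ x x', wordEval φ (p x) w = wordEval φ (p x') w) :
    IsRamseySet (Set.range (fun x => (WithLp.toLp 2 (p x) : EuclideanSpace ℝ (Fin d)))) := by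
  obtain ⟨K⟩ := exists_core_wd
  obtain ⟨x₀⟩ := ‹Nonempty X›
  let s : ℝ := (Real.sqrt m)⁻¹
  have hs : ∀ _ : Fin d, ((m : ℕ) : ℝ) * s ^ 2 = 1 := by
    intro _
    have h0 : (0 : ℝ) < m := by exact_mod_cast hm
    have h1 : (Real.sqrt m) ^ 2 = m := Real.sq_sqrt h0.le
    have h2 : Real.sqrt m ≠ 0 := (Real.sqrt_pos.mpr h0).ne'
    simp only [s]
    field_simp
    rw [h1]
  obtain ⟨w, hw, hconst⟩ := H (Gam K) (fun t => letter K (s * t))
  have hreach := reach_word (K := K) s p w
  have hκ : wordWeight w = fun _ => m := funext hw
  have hreach' : Reach K (fun x i => s * p x i) (fun _ => m)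
      (fun _ => wordEval (fun t => letter K (s * t)) (p x₀) w) :=
    hreach.congr hκ (fun x => hconst x x₀)
  exact ramsey_of_lines p s (fun _ => m) hs (fun r col => hreach'.exists_mono col)

end Vale.Agent.Lib.P058
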