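import Vale.Agent.Lib.P058.Lines

/-!
The family: all coordinate permutations of a vector with one coordinate `c`, `q ≤ 3` coordinates
`b`, and all other coordinates `a`, form a Ramsey set.
-/

namespace Vale.Agent.Lib.P058

open Filter

attribute [local instance] Ultrafilter.semigroup

section Alg

variable {H : Type*} [Group H]

/-- The palindromic word `α^I β α^J P α^J β α^I`. -/
def uu (α β P : H) (I J : ℕ) : H := α ^ I * β * α ^ J * P * (α ^ J * β * α ^ I)

theorem uu_zero_left (α β : H) (q : ℕ) : uu α β (β * α ^ q)⁻¹ 0 q = α ^ q * β := by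
  simp [uu]

theorem uu_zero_right (α β : H) (q : ℕ) : uu α β (β * α ^ q)⁻¹ q 0 = α ^ q * β := by
  simp [uu, mul_assoc]

/-- The key word identity: at most two values. -/
theorem word_values (α β : H) {q I J : ℕ} (hq : q ≤ 3) (hIJ : I + J = q) (R : H)
    (hR : R = (uu α β (β * α ^ q)⁻¹ 1 (q - 1))⁻¹) :
    uu α β (β * α ^ q)⁻¹ I J * R * uu α β (β * α ^ q)⁻¹ J I = (α ^ q * β) * R * (α ^ q * β) ∨
    uu α β (β * α ^ q)⁻¹ I J * R * uu α β (β * α ^ q)⁻¹ J I = uu α β (β * α ^ q)⁻¹ (q - 1) 1 := by
  rcases Nat.eq_zero_or_pos I with rfl | hI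
  · left
    have : J = q := by omega
    subst this
    rw [uu_zero_left, uu_zero_right]
  rcases Nat.eq_zero_or_pos J with rfl | hJ
  · left
    have : I = q := by omega
    subst this
    rw [uu_zero_left, uu_zero_right]
  right
  subst hR
  have hcases : (I = 1 ∧ J = 1) ∨ (I = 1 ∧ J = 2) ∨ (I = 2 ∧ J = 1) := by omega
  rcases hcases with ⟨rfl, rfl⟩ | ⟨rfl, rfl⟩ | ⟨rfl, rfl⟩
  · subst hIJ; simp
  · subst hIJ; simp
  · subst hIJ; simp

variable (φ : ℝ → H) {a b c : ℝ}

theorem prod_no_c (hφa : φ a = 1) (hab : a ≠ b) : ∀ l : List ℝ, (∀ t ∈ l, t = a ∨ t = b) →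
    (l.map φ).prod = (φ b) ^ (l.countP (fun t => decide (t = b)))
  | [], _ => by simp
  | h :: l, hl => by
    have ih := prod_no_c hφa hab l (fun t ht => hl t (List.mem_cons_of_mem _ ht))
    rcases hl h List.mem_cons_self with rfl | rfl
    · simp [hab, hφa, ih]
    · simp [ih, pow_succ']

theorem prod_one_c (hφa : φ a = 1) (hab : a ≠ b) (hac : a ≠ c) (hbc : b ≠ c) :
    ∀ l : List ℝ, (∀ t ∈ l, t = a ∨ t = b ∨ t = c) → l.countP (fun t => decide (t = c)) = 1 →
    ∃ I J : ℕ, I + J = l.countP (fun t => decide (t = b)) ∧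
      (l.map φ).prod = (φ b) ^ I * φ c * (φ b) ^ J ∧
      (l.reverse.map φ).prod = (φ b) ^ J * φ c * (φ b) ^ I
  | [], _, h => by simp at h
  | h :: l, hl, hcount => by
    have hl' : ∀ t ∈ l, t = a ∨ t = b ∨ t = c := fun t ht => hl t (List.mem_cons_of_mem _ ht)
    by_cases hh : h = c
    · subst hh
      have h0 : l.countP (fun t => decide (t = h)) = 0 := by
        simpa [List.countP_cons] using hcount
      have hnoc : ∀ t ∈ l, t = a ∨ t = b := by
        intro t ht
        have := List.countP_eq_zero.mp h0 t ht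
        have hne : t ≠ h := by simpa using this
        rcases hl' t ht with h1 | h1 | h1
        · exact Or.inl h1
        · exact Or.inr h1
        · exact absurd h1 hne
      have hrev : ∀ t ∈ l.reverse, t = a ∨ t = b := fun t ht => hnoc t (List.mem_reverse.mp ht)
      refine ⟨0, l.countP (fun t => decide (t = b)), ?_, ?_, ?_⟩
      · simp [hbc.symm]
      · simp only [List.map_cons, List.prod_cons, pow_zero, one_mul]
        rw [prod_no_c φ hφa hab l hnoc]
      · have := prod_no_c φ hφa hab l.reverse hrev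
        rw [List.countP_reverse] at this
        simp only [List.reverse_cons, List.map_append, List.prod_append, this, List.map_cons,
          List.map_nil, List.prod_cons, List.prod_nil, mul_one, pow_zero]
    · have hcount' : l.countP (fun t => decide (t = c)) = 1 := by
        simpa [List.countP_cons, hh] using hcount
      obtain ⟨I, J, hIJ, h1, h2⟩ := prod_one_c hφa hab hac hbc l hl' hcount'
      rcases hl h List.mem_cons_self with rfl | rfl | rfl
      · refine ⟨I, J, ?_, ?_, ?_⟩
        · simp [hab, hIJ]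
        · simp [hφa, h1]
        · simp only [List.reverse_cons, List.map_append, List.prod_append, h2, List.map_cons,
            List.map_nil, List.prod_cons, List.prod_nil, mul_one, hφa]
      · refine ⟨I + 1, J, ?_, ?_, ?_⟩
        · simp [← hIJ]; omega
        · simp only [List.map_cons, List.prod_cons, h1]
          simp only [pow_succ', mul_assoc]
        · simp only [List.reverse_cons, List.map_append, List.prod_append, h2, List.map_cons,
            List.map_nil, List.prod_cons, List.prod_nil, mul_one]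
          simp only [pow_succ, mul_assoc]
      · exact absurd rfl hh

/-- The seven-fold word attached to a list. -/
def Ph (P R : H) (l : List ℝ) : H :=
  (l.map φ).prod * P * (l.reverse.map φ).prod * R * (l.reverse.map φ).prod * P * (l.map φ).prod

theorem Ph_values (hφa : φ a = 1) (hab : a ≠ b) (hac : a ≠ c) (hbc : b ≠ c) {q : ℕ} (hq : q ≤ 3)
    (l : List ℝ) (hl : ∀ t ∈ l, t = a ∨ t = b ∨ t = c)
    (hlc : l.countP (fun t => decide (t = c)) = 1)
    (hlb : l.countP (fun t => decide (t = b)) = q) (R : H)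
    (hR : R = (uu (φ b) (φ c) (φ c * (φ b) ^ q)⁻¹ 1 (q - 1))⁻¹) :
    Ph φ (φ c * (φ b) ^ q)⁻¹ R l = ((φ b) ^ q * φ c) * R * ((φ b) ^ q * φ c) ∨
    Ph φ (φ c * (φ b) ^ q)⁻¹ R l = uu (φ b) (φ c) (φ c * (φ b) ^ q)⁻¹ (q - 1) 1 := by
  obtain ⟨I, J, hIJ, h1, h2⟩ := prod_one_c φ hφa hab hac hbc l hl hlc
  rw [hlb] at hIJ
  have := word_values (φ b) (φ c) hq hIJ R hR
  have e : Ph φ (φ c * (φ b) ^ q)⁻¹ R l =
      uu (φ b) (φ c) (φ c * (φ b) ^ q)⁻¹ I J * R * uu (φ b) (φ c) (φ c * (φ b) ^ q)⁻¹ J I := by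
    simp only [Ph, uu, h1, h2, mul_assoc]
  rw [e]
  exact this

/-- The two-valued word gives powers of one element. -/
theorem prod_two_valued {Y : Type*} [DecidableEq H] (A₁ A₂ : H) (g : Y → H)
    (hg : ∀ y, g y = A₁ ∨ g y = A₂) (L : List Y) :
    (L.map (fun y => g y * A₁⁻¹)).prod =
      (A₂ * A₁⁻¹) ^ (L.map (fun y => if g y = A₁ then 0 else 1)).sum := by
  induction L with
  | nil => simp
  | cons y L ih =>
    simp only [List.map_cons, List.prod_cons, List.sum_cons, ih, pow_add]
    by_cases h : g y = A₁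
    · simp [h]
    · have h2 : g y = A₂ := (hg y).resolve_left h
      rw [if_neg h, pow_one, h2]

end Alg

theorem countP_ofFn_eq {α : Type*} (p : α → Bool) : ∀ {n : ℕ} (f : Fin n → α),
    (List.ofFn f).countP p = ∑ i, if p (f i) = true then 1 else 0
  | 0, f => by simp
  | n + 1, f => by
    rw [List.ofFn_succ, List.countP_cons, countP_ofFn_eq p (fun i => f i.succ),
      Fin.sum_univ_succ]
    omega

/-- Weight of a list of slots. -/
def kap {n : ℕ} (l : List (Fin n)) : Fin n → ℕ := (l.map (fun i => Pi.single i 1)).sum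

theorem kap_perm {n : ℕ} {l l' : List (Fin n)} (h : l.Perm l') : kap l = kap l' :=
  (h.map _).sum_eq

theorem kap_ofFn_id {n : ℕ} : kap (List.ofFn (id : Fin n → Fin n)) = fun _ => 1 := by
  funext i
  simp only [kap, List.map_ofFn, List.sum_ofFn]
  simp [Finset.sum_apply, Pi.single_apply]

theorem kap_ofFn_perm {n : ℕ} (σ : Equiv.Perm (Fin n)) : kap (List.ofFn σ) = fun _ => 1 := by
  rw [← kap_ofFn_id]
  exact kap_perm (Equiv.Perm.ofFn_comp_perm σ id)

theorem kap_ofFn_perm_rev {n : ℕ} (σ : Equiv.Perm (Fin n)) :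
    kap (List.ofFn σ).reverse = fun _ => 1 := by
  rw [← kap_ofFn_perm σ]
  exact kap_perm (List.reverse_perm _)

section Main

variable (K : Core (Ultrafilter Wd))

/-- The normalised letter map. -/
noncomputable def phi (s a : ℝ) (t : ℝ) : Gam K := letter K (s * t) * (letter K (s * a))⁻¹

variable {K}

theorem reach_list {n : ℕ} {X : Type*} [Finite X] (s a : ℝ) (p : X → Fin n → ℝ)
    (l : List (Fin n)) :
    Reach K (fun x i => s * p x i) (kap l) (fun x => (l.map (fun i => phi K s a (p x i))).prod) := by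
  induction l with
  | nil =>
    have := Reach.const (K := K) (fun (x : X) (i : Fin n) => s * p x i) 1
    simpa [kap] using this
  | cons h l ih =>
    have h1 := (Reach.letter (K := K) (fun (x : X) (i : Fin n) => s * p x i) h).mul
      (Reach.const (K := K) (fun (x : X) (i : Fin n) => s * p x i) (letter K (s * a))⁻¹)
    refine (h1.mul ih).congr ?_ ?_
    · simp [kap]
    · intro x
      simp [phi]

theorem phi_a (s a : ℝ) : phi K s a a = 1 := by simp [phi]

/-- The word on one pass. -/
theorem reach_pass {n : ℕ} {X : Type*} [Finite X] (s a : ℝ) (p : X → Fin n → ℝ)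
    (σ : Equiv.Perm (Fin n)) :
    Reach K (fun x i => s * p x i) (fun _ => 1)
      (fun x => ((List.ofFn (p x ∘ σ)).map (phi K s a)).prod) := by
  refine (reach_list s a p (List.ofFn σ)).congr (kap_ofFn_perm σ) fun x => ?_
  congr 1
  simp [List.map_ofFn, Function.comp_def]

theorem reach_pass_rev {n : ℕ} {X : Type*} [Finite X] (s a : ℝ) (p : X → Fin n → ℝ)
    (σ : Equiv.Perm (Fin n)) :
    Reach K (fun x i => s * p x i) (fun _ => 1)
      (fun x => ((List.ofFn (p x ∘ σ)).reverse.map (phi K s a)).prod) := by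
  refine (reach_list s a p (List.ofFn σ).reverse).congr (kap_ofFn_perm_rev σ) fun x => ?_
  congr 1
  simp [List.map_ofFn, Function.comp_def, List.map_reverse]

/-- The seven-fold word has weight four on each slot. -/
theorem reach_Ph {n : ℕ} {X : Type*} [Finite X] (s a : ℝ) (p : X → Fin n → ℝ)
    (σ : Equiv.Perm (Fin n)) (P R : Gam K) :
    Reach K (fun x i => s * p x i) (fun _ => 4)
      (fun x => Ph (phi K s a) P R (List.ofFn (p x ∘ σ))) := by
  have c := fun g : Gam K => Reach.const (K := K) (fun (x : X) (i : Fin n) => s * p x i) g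
  have h := (((((((reach_pass (K := K) s a p σ).mul (c P)).mul (reach_pass_rev s a p σ)).mul
    (c R)).mul (reach_pass_rev s a p σ)).mul (c P))).mul (reach_pass s a p σ)
  refine h.congr ?_ (fun x => rfl)
  funext i
  simp

/-- A list product of families of constant weight. -/
theorem reach_list_prod {X Y ι : Type*} [Fintype ι] [DecidableEq ι] [Finite X]
    (lab : X → ι → ℝ) (e : ℕ) (H : Y → X → Gam K)
    (hH : ∀ y, Reach K lab (fun _ => e) (H y)) (L : List Y) :
    Reach K lab (fun _ => L.length * e) (fun x => (L.map (fun y => H y x)).prod) := by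
  induction L with
  | nil =>
    have := Reach.const (K := K) lab 1
    refine this.congr ?_ (fun x => by simp)
    funext i; simp
  | cons y L ih =>
    refine ((hH y).mul ih).congr ?_ (fun x => by simp)
    funext i
    simp only [Pi.add_apply, List.length_cons]
    ring

end Main

/-- **Main theorem.** All coordinate permutations of a vector with exactly one coordinate `c`,
exactly `q ≤ 3` coordinates `b` and all other coordinates `a` form a Ramsey set. -/
theorem family_ramsey {n q : ℕ} (hq : q ≤ 3) {a b c : ℝ} (hab : a ≠ b) (hac : a ≠ c) (hbc : b ≠ c)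
    (v : Fin n → ℝ) (hv : ∀ i, v i = a ∨ v i = b ∨ v i = c)
    (hc : (Finset.univ.filter (fun i => v i = c)).card = 1)
    (hb : (Finset.univ.filter (fun i => v i = b)).card = q) :
    IsRamseySet (Set.range (fun π : Equiv.Perm (Fin n) =>
      (WithLp.toLp 2 (v ∘ π) : EuclideanSpace ℝ (Fin n)))) := by
  classical
  obtain ⟨K⟩ := exists_core_wd
  -- the list of all permutations and the scale
  let L : List (Equiv.Perm (Fin n)) := (Finset.univ : Finset (Equiv.Perm (Fin n))).toList
  have hLpos : 0 < L.length := by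
    simp only [L, Finset.length_toList]
    exact Finset.card_pos.mpr ⟨1, Finset.mem_univ _⟩
  let m : ℕ := L.length * 4
  have hm : 0 < m := by positivity
  let s : ℝ := (Real.sqrt m)⁻¹
  have hs : ∀ _ : Fin n, ((m : ℕ) : ℝ) * s ^ 2 = 1 := by
    intro _
    have h0 : (0 : ℝ) < m := by exact_mod_cast hm
    have h1 : (Real.sqrt m) ^ 2 = m := Real.sq_sqrt h0.le
    have h2 : Real.sqrt m ≠ 0 := (Real.sqrt_pos.mpr h0).ne'
    simp only [s]
    field_simp
    rw [h1]
  let φ : ℝ → Gam K := phi K s a
  have hφa : φ a = 1 := phi_a s a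
  let P : Gam K := (φ c * (φ b) ^ q)⁻¹
  let R : Gam K := (uu (φ b) (φ c) (φ c * (φ b) ^ q)⁻¹ 1 (q - 1))⁻¹
  let A₁ : Gam K := ((φ b) ^ q * φ c) * R * ((φ b) ^ q * φ c)
  let A₂ : Gam K := uu (φ b) (φ c) (φ c * (φ b) ^ q)⁻¹ (q - 1) 1
  let Φ : (Fin n → ℝ) → Gam K := fun f => Ph φ P R (List.ofFn f)
  -- the values of the word on the orbit
  have hΦ : ∀ τ : Equiv.Perm (Fin n), Φ (v ∘ τ) = A₁ ∨ Φ (v ∘ τ) = A₂ := by
    intro τ
    refine Ph_values φ hφa hab hac hbc hq (List.ofFn (v ∘ τ)) ?_ ?_ ?_ R rfl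
    · intro t ht
      obtain ⟨i, rfl⟩ := (List.mem_ofFn' _ _).mp ht
      exact hv (τ i)
    · rw [countP_ofFn_eq]
      have := Equiv.sum_comp τ (fun i => if v i = c then 1 else 0)
      simp only [Function.comp_apply, decide_eq_true_eq]
      rw [this, ← Finset.card_filter, hc]
    · rw [countP_ofFn_eq]
      have := Equiv.sum_comp τ (fun i => if v i = b then 1 else 0)
      simp only [Function.comp_apply, decide_eq_true_eq]
      rw [this, ← Finset.card_filter, hb]
  -- the final product on the orbit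
  let Tot : (Fin n → ℝ) → Gam K := fun x => (L.map (fun σ : Equiv.Perm (Fin n) => Φ (x ∘ σ) * A₁⁻¹)).prod
  have hTot : ∀ π : Equiv.Perm (Fin n), Tot (v ∘ π) = Tot v := by
    intro π
    have e1 : ∀ x : Fin n → ℝ, (∀ σ : Equiv.Perm (Fin n), Φ (x ∘ σ) = A₁ ∨ Φ (x ∘ σ) = A₂) →
        Tot x = (A₂ * A₁⁻¹) ^ ∑ σ : Equiv.Perm (Fin n), (if Φ (x ∘ σ) = A₁ then 0 else 1) := by
      intro x hx
      have := prod_two_valued A₁ A₂ (fun σ : Equiv.Perm (Fin n) => Φ (x ∘ σ)) hx L
      simp only [Tot]
      rw [this]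
      simp only [L]
      rw [Finset.sum_map_toList]
    have hcomp : ∀ σ : Equiv.Perm (Fin n), (v ∘ π) ∘ σ = v ∘ (π * σ : Equiv.Perm (Fin n)) := by
      intro σ; rfl
    have h1 := e1 (v ∘ π) (fun σ => by rw [hcomp]; exact hΦ _)
    have h2 := e1 v (fun σ => hΦ σ)
    rw [h1, h2]
    congr 1
    simp only [hcomp]
    exact Equiv.sum_comp (Equiv.mulLeft π)
      (fun σ : Equiv.Perm (Fin n) => if Φ (v ∘ σ) = A₁ then 0 else 1)
  -- the reach
  let p : Equiv.Perm (Fin n) → Fin n → ℝ := fun π => v ∘ π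
  have hreach : Reach K (fun π i => s * p π i) (fun _ => m) (fun π => Tot (p π)) := by
    refine (reach_list_prod (K := K) _ 4 (fun (σ : Equiv.Perm (Fin n)) π => Φ (p π ∘ σ) * A₁⁻¹) (fun σ => ?_) L)
    exact ((reach_Ph (K := K) s a p σ P R).mul (Reach.const _ A₁⁻¹)).congr (by funext i; simp)
      (fun x => rfl)
  have hreach' : Reach K (fun π i => s * p π i) (fun _ => m) (fun _ => Tot v) :=
    hreach.congr rfl (fun π => hTot π)
  exact ramsey_of_lines p s (fun _ => m) hs (fun r col => hreach'.exists_mono col)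

end Vale.Agent.Lib.P058
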