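import Vale.Agent.Lib.P058.Semi

/-!
Lines in the free monoid over `ℝ`: realizability by ultrafilters, the group of a minimal idempotent
of `Ultrafilter (FreeMonoid ℝ)`, and the transfer from coloured lines to the Euclidean Ramsey
property.
-/

namespace Vale.Agent.Lib.P058

open Filter

attribute [local instance] Ultrafilter.semigroup

/-- Words over the real line. -/
abbrev Wd := FreeMonoid ℝ

/-- The sum of squared coordinate differences of two lists. -/
noncomputable def sqd : List ℝ → List ℝ → ℝ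
  | a :: l, b :: l' => (a - b) ^ 2 + sqd l l'
  | _, _ => 0

theorem sqd_self : ∀ l : List ℝ, sqd l l = 0
  | [] => rfl
  | a :: l => by simp [sqd, sqd_self l]

theorem sqd_append : ∀ (l₁ l₁' : List ℝ), l₁.length = l₁'.length → ∀ (l₂ l₂' : List ℝ),
    sqd (l₁ ++ l₂) (l₁' ++ l₂') = sqd l₁ l₁' + sqd l₂ l₂'
  | [], [], _, l₂, l₂' => by simp [sqd]
  | a :: l₁, b :: l₁', h, l₂, l₂' => by
    have h' : l₁.length = l₁'.length := by simpa using h
    simp only [List.cons_append, sqd]
    rw [sqd_append l₁ l₁' h' l₂ l₂']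
    ring
  | [], _ :: _, h, _, _ => by simp at h
  | _ :: _, [], h, _, _ => by simp at h

variable {X ι : Type*} [Fintype ι] [DecidableEq ι]

/-- A family of words of equal length whose pairwise squared distances are prescribed by weights
`κ` on the slots `ι`. -/
structure IsLine (lab : X → ι → ℝ) (κ : ι → ℕ) (w : X → Wd) : Prop where
  len : ∀ x x', (FreeMonoid.toList (w x)).length = (FreeMonoid.toList (w x')).length
  dist : ∀ x x', sqd (FreeMonoid.toList (w x)) (FreeMonoid.toList (w x')) =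
    ∑ i, (κ i : ℝ) * (lab x i - lab x' i) ^ 2

theorem IsLine.const (lab : X → ι → ℝ) (u : Wd) : IsLine lab 0 (fun _ => u) :=
  ⟨fun _ _ => rfl, fun _ _ => by simp [sqd_self]⟩

theorem IsLine.slot (lab : X → ι → ℝ) (i : ι) :
    IsLine lab (Pi.single i 1) (fun x => FreeMonoid.of (lab x i)) := by
  refine ⟨fun _ _ => rfl, fun x x' => ?_⟩
  simp [sqd, Pi.single_apply]

theorem IsLine.mul {lab : X → ι → ℝ} {κ κ' : ι → ℕ} {w w' : X → Wd}
    (h : IsLine lab κ w) (h' : IsLine lab κ' w') :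
    IsLine lab (κ + κ') (fun x => w x * w' x) := by
  refine ⟨fun x x' => ?_, fun x x' => ?_⟩
  · simp only [FreeMonoid.toList_mul, List.length_append, h.len x x', h'.len x x']
  · simp only [FreeMonoid.toList_mul]
    rw [sqd_append _ _ (h.len x x'), h.dist x x', h'.dist x x', ← Finset.sum_add_distrib]
    refine Finset.sum_congr rfl fun i _ => ?_
    simp only [Pi.add_apply, Nat.cast_add]
    ring

/-- A family `Q` of ultrafilters is realizable with weight `κ` if every choice of large sets is hit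
by a line. -/
def Realizable (lab : X → ι → ℝ) (κ : ι → ℕ) (Q : X → Ultrafilter Wd) : Prop :=
  ∀ B : X → Set Wd, (∀ x, B x ∈ Q x) → ∃ w : X → Wd, IsLine lab κ w ∧ ∀ x, w x ∈ B x

theorem Realizable.const [Finite X] (lab : X → ι → ℝ) (U : Ultrafilter Wd) :
    Realizable lab 0 (fun _ : X => U) := by
  intro B hB
  have h : (⋂ x, B x) ∈ U := Filter.iInter_mem.mpr hB
  obtain ⟨u, hu⟩ := Ultrafilter.nonempty_of_mem h
  exact ⟨fun _ => u, IsLine.const lab u, fun x => Set.mem_iInter.mp hu x⟩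

theorem Realizable.slot (lab : X → ι → ℝ) (i : ι) :
    Realizable lab (Pi.single i 1) (fun x => pure (FreeMonoid.of (lab x i))) := by
  intro B hB
  exact ⟨_, IsLine.slot lab i, fun x => Ultrafilter.mem_pure.mp (hB x)⟩

theorem Realizable.mul {lab : X → ι → ℝ} {κ κ' : ι → ℕ} {Q Q' : X → Ultrafilter Wd}
    (h : Realizable lab κ Q) (h' : Realizable lab κ' Q') :
    Realizable lab (κ + κ') (fun x => Q x * Q' x) := by
  intro B hB
  obtain ⟨w, hw, hwB⟩ := h (fun x => {s | ∀ᶠ t in (Q' x : Filter Wd), s * t ∈ B x}) hB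
  obtain ⟨w', hw', hwB'⟩ := h' (fun x => {t | w x * t ∈ B x}) hwB
  exact ⟨_, hw.mul hw', hwB'⟩

/-! ### The group of a core of `Ultrafilter Wd` -/

instance : Nonempty (Ultrafilter Wd) := ⟨pure 1⟩

theorem exists_core_wd : Nonempty (Core (Ultrafilter Wd)) :=
  exists_core (Ultrafilter.continuous_mul_left)

variable (K : Core (Ultrafilter Wd))

/-- The element `z * pure t * z` of the group. -/
def letter (t : ℝ) : Gam K :=
  ⟨K.z * pure (FreeMonoid.of t) * K.z,
    by rw [← mul_assoc, ← mul_assoc, K.idem], by rw [mul_assoc, K.idem]⟩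

/-- Realizability of a family of group elements. -/
def Reach (lab : X → ι → ℝ) (κ : ι → ℕ) (F : X → Gam K) : Prop :=
  Realizable lab κ (fun x => (F x).1)

variable {K}

theorem Reach.const [Finite X] (lab : X → ι → ℝ) (g : Gam K) : Reach K lab 0 (fun _ => g) :=
  Realizable.const lab g.1

theorem Reach.mul {lab : X → ι → ℝ} {κ κ' : ι → ℕ} {F F' : X → Gam K}
    (h : Reach K lab κ F) (h' : Reach K lab κ' F') :
    Reach K lab (κ + κ') (fun x => F x * F' x) :=
  Realizable.mul h h'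

theorem Reach.letter [Finite X] (lab : X → ι → ℝ) (i : ι) :
    Reach K lab (Pi.single i 1) (fun x => letter K (lab x i)) := by
  have h := ((Realizable.const lab K.z).mul (Realizable.slot lab i)).mul (Realizable.const lab K.z)
  have e : ((0 : ι → ℕ) + Pi.single i 1 + 0) = Pi.single i 1 := by simp
  rw [e] at h
  exact h

theorem Reach.congr {lab : X → ι → ℝ} {κ κ' : ι → ℕ} {F F' : X → Gam K}
    (h : Reach K lab κ F) (hκ : κ = κ') (hF : ∀ x, F x = F' x) : Reach K lab κ' F' := by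
  have : F = F' := funext hF
  subst this; subst hκ; exact h

/-- A constant family in the group is monochromatic for every finite colouring: the lines. -/
theorem Reach.exists_mono {lab : X → ι → ℝ} {κ : ι → ℕ} {g : Gam K}
    (h : Reach K lab κ (fun _ => g)) {r : ℕ} (col : Wd → Fin r) :
    ∃ w : X → Wd, IsLine lab κ w ∧ ∃ i : Fin r, ∀ x, col (w x) = i := by
  classical
  obtain ⟨i, hi⟩ := Ultrafilter.eq_pure_of_finite (g.1.map col)
  have hmem : col ⁻¹' {i} ∈ g.1 := by
    have : ({i} : Set (Fin r)) ∈ g.1.map col := by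
      rw [hi]; exact Ultrafilter.mem_pure.mpr rfl
    exact Ultrafilter.mem_map.mp this
  obtain ⟨w, hw, hwB⟩ := h (fun _ => col ⁻¹' {i}) (fun _ => hmem)
  exact ⟨w, hw, i, fun x => hwB x⟩

/-! ### The Euclidean Ramsey property -/

/-- A subset `A` of `ℝ^d` is Ramsey: for every `r ≥ 2` there is `D ≥ 1` such that each `r`-colouring
of `ℝ^D` is constant on the image of `A` under some map preserving all distances within `A`. -/
def IsRamseySet {d : ℕ} (A : Set (EuclideanSpace ℝ (Fin d))) : Prop :=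
  ∀ r : ℕ, 2 ≤ r → ∃ D : ℕ, 1 ≤ D ∧ ∀ c : EuclideanSpace ℝ (Fin D) → Fin r,
    ∃ f : EuclideanSpace ℝ (Fin d) → EuclideanSpace ℝ (Fin D),
      (∀ x ∈ A, ∀ y ∈ A, dist (f x) (f y) = dist x y) ∧ ∃ i : Fin r, ∀ x ∈ A, c (f x) = i

/-- Padding a word with zeros to a point of `ℝ^D`. -/
noncomputable def pad (D : ℕ) (w : Wd) : EuclideanSpace ℝ (Fin D) :=
  WithLp.toLp 2 (fun j : Fin D => (FreeMonoid.toList w).getD j 0)

theorem sum_range_sqd : ∀ (l l' : List ℝ), l.length = l'.length → ∀ D, l.length ≤ D →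
    ∑ j ∈ Finset.range D, (l.getD j 0 - l'.getD j 0) ^ 2 = sqd l l'
  | [], [], _, D, _ => by simp [sqd]
  | a :: l, b :: l', h, D, hD => by
    have h' : l.length = l'.length := by simpa using h
    obtain ⟨D, rfl⟩ : ∃ E, D = E + 1 := ⟨D - 1, by simp at hD; omega⟩
    have hD' : l.length ≤ D := by simpa using hD
    rw [Finset.sum_range_succ']
    simp only [List.getD_cons_succ, List.getD_cons_zero, sqd]
    rw [sum_range_sqd l l' h' D hD']
    ring
  | [], _ :: _, h, _, _ => by simp at h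
  | _ :: _, [], h, _, _ => by simp at h

theorem dist_pad (D : ℕ) (w w' : Wd)
    (h : (FreeMonoid.toList w).length = (FreeMonoid.toList w').length)
    (hD : (FreeMonoid.toList w).length ≤ D) :
    dist (pad D w) (pad D w') = Real.sqrt (sqd (FreeMonoid.toList w) (FreeMonoid.toList w')) := by
  rw [EuclideanSpace.dist_eq, ← sum_range_sqd _ _ h D hD, ← Fin.sum_univ_eq_sum_range
    (fun j => ((FreeMonoid.toList w).getD j 0 - (FreeMonoid.toList w').getD j 0) ^ 2) D]
  congr 1
  refine Finset.sum_congr rfl fun j _ => ?_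
  simp [pad, Real.dist_eq, sq_abs]

/-- The transfer: if every colouring of words has a monochromatic line with weights normalised by
the scale `s`, then the finite set of points is Ramsey. -/
theorem ramsey_of_lines {d : ℕ} {X : Type*} [Finite X] [Nonempty X]
    (p : X → Fin d → ℝ) (s : ℝ) (κ : Fin d → ℕ) (hκ : ∀ i, (κ i : ℝ) * s ^ 2 = 1)
    (H : ∀ (r : ℕ) (col : Wd → Fin r), ∃ w : X → Wd, IsLine (fun x i => s * p x i) κ w ∧
      ∃ i : Fin r, ∀ x, col (w x) = i) :
    IsRamseySet (Set.range (fun x => (WithLp.toLp 2 (p x) : EuclideanSpace ℝ (Fin d)))) := by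
  intro r hr
  by_contra hno
  push Not at hno
  have hbad : ∀ D : ℕ, ∃ c : EuclideanSpace ℝ (Fin (D + 1)) → Fin r,
      ∀ f : EuclideanSpace ℝ (Fin d) → EuclideanSpace ℝ (Fin (D + 1)),
        (∀ x ∈ Set.range (fun x => (WithLp.toLp 2 (p x) : EuclideanSpace ℝ (Fin d))),
          ∀ y ∈ Set.range (fun x => (WithLp.toLp 2 (p x) : EuclideanSpace ℝ (Fin d))),
          dist (f x) (f y) = dist x y) →
        ∀ i : Fin r, ∃ x ∈ Set.range (fun x => (WithLp.toLp 2 (p x) : EuclideanSpace ℝ (Fin d))),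
          c (f x) ≠ i := fun D => hno (D + 1) (by omega)
  choose cc hcc using hbad
  have hcol : ∀ w : Wd, ∃ i : Fin r, ∀ᶠ D in (hyperfilter ℕ : Filter ℕ), cc D (pad (D + 1) w) = i := by
    intro w
    obtain ⟨i, hi⟩ := Ultrafilter.eq_pure_of_finite
      ((hyperfilter ℕ).map (fun D => cc D (pad (D + 1) w)))
    refine ⟨i, ?_⟩
    have : ({i} : Set (Fin r)) ∈ (hyperfilter ℕ).map (fun D => cc D (pad (D + 1) w)) := by
      rw [hi]; exact Ultrafilter.mem_pure.mpr rfl
    exact Ultrafilter.mem_map.mp this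
  choose col hcol using hcol
  obtain ⟨w, hw, i, hi⟩ := H r col
  obtain ⟨x₀⟩ := ‹Nonempty X›
  have h1 : (⋂ x, {D | cc D (pad (D + 1) (w x)) = i}) ∈ (hyperfilter ℕ : Filter ℕ) := by
    refine Filter.iInter_mem.mpr fun x => ?_
    have := hcol (w x)
    rw [hi x] at this
    exact this
  have h2 : {D : ℕ | (FreeMonoid.toList (w x₀)).length ≤ D} ∈ (hyperfilter ℕ : Filter ℕ) := by
    apply Filter.hyperfilter_le_cofinite
    rw [Nat.cofinite_eq_atTop]
    exact Filter.mem_atTop _
  obtain ⟨D, hD1, hD2⟩ := Ultrafilter.nonempty_of_mem (Filter.inter_mem h1 h2)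
  have hD1' : ∀ x, cc D (pad (D + 1) (w x)) = i := fun x => Set.mem_iInter.mp hD1 x
  have hD2' : (FreeMonoid.toList (w x₀)).length ≤ D := hD2
  classical
  let f : EuclideanSpace ℝ (Fin d) → EuclideanSpace ℝ (Fin (D + 1)) := fun y =>
    if h : ∃ x, (WithLp.toLp 2 (p x) : EuclideanSpace ℝ (Fin d)) = y then pad (D + 1) (w h.choose)
    else 0
  have hf : ∀ x : X, ∃ x₁ : X, (WithLp.toLp 2 (p x₁) : EuclideanSpace ℝ (Fin d)) =
      WithLp.toLp 2 (p x) ∧ f (WithLp.toLp 2 (p x)) = pad (D + 1) (w x₁) := by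
    intro x
    have h : ∃ x₁, (WithLp.toLp 2 (p x₁) : EuclideanSpace ℝ (Fin d)) = WithLp.toLp 2 (p x) :=
      ⟨x, rfl⟩
    refine ⟨h.choose, h.choose_spec, ?_⟩
    simp only [f, dif_pos h]
  obtain ⟨_, ⟨x, rfl⟩, hx⟩ := hcc D f (by
    rintro _ ⟨x, rfl⟩ _ ⟨y, rfl⟩
    obtain ⟨x₁, hx₁, hfx⟩ := hf x
    obtain ⟨y₁, hy₁, hfy⟩ := hf y
    simp only [hfx, hfy]
    rw [← hx₁, ← hy₁, dist_pad (D + 1) _ _ (hw.len x₁ y₁)
      (by rw [hw.len x₁ x₀]; omega), hw.dist x₁ y₁, EuclideanSpace.dist_eq]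
    congr 1
    refine Finset.sum_congr rfl fun j _ => ?_
    have := hκ j
    simp only [Real.dist_eq, sq_abs]
    calc (κ j : ℝ) * (s * p x₁ j - s * p y₁ j) ^ 2
        = ((κ j : ℝ) * s ^ 2) * (p x₁ j - p y₁ j) ^ 2 := by ring
      _ = (p x₁ j - p y₁ j) ^ 2 := by rw [this, one_mul]) i
  obtain ⟨x₁, -, hfx⟩ := hf x
  exact hx (by simp only [hfx]; exact hD1' x₁)

end Vale.Agent.Lib.P058
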