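import Mathlib

/-!
Minimal closed left ideals in compact right-topological semigroups, and the group
`z M z` attached to an idempotent `z` of a minimal closed left ideal.
-/

namespace Vale.Agent.Lib.P058

/-- An idempotent `z` such that each element of `z M z` has a left inverse modulo `z`. -/
structure Core (M : Type*) [Semigroup M] where
  z : M
  idem : z * z = z
  inv : ∀ t : M, ∃ y : M, y * (z * t * z) = z

theorem exists_core {M : Type*} [Nonempty M] [Semigroup M] [TopologicalSpace M] [CompactSpace M]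
    [T2Space M] (hc : ∀ r : M, Continuous (· * r)) : Nonempty (Core M) := by
  let S : Set (Set M) := {N | IsClosed N ∧ N.Nonempty ∧ ∀ m, ∀ x ∈ N, m * x ∈ N}
  rsuffices ⟨L, hL⟩ : ∃ N', Minimal (· ∈ S) N'
  · obtain ⟨L_closed, L_ne, L_left⟩ := hL.prop
    obtain ⟨z, hzL, hz⟩ := exists_idempotent_in_compact_subsemigroup hc L L_ne
      L_closed.isCompact (fun x _ y hy => L_left x y hy)
    refine ⟨⟨z, hz, fun t => ?_⟩⟩
    have hxL : z * t * z ∈ L := L_left _ _ hzL
    have key : (· * (z * t * z)) '' Set.univ = L := by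
      apply hL.eq_of_subset
      · refine ⟨(hc _).isClosedMap _ isClosed_univ, ⟨_, ⟨z, trivial, rfl⟩⟩, ?_⟩
        rintro m _ ⟨a, -, rfl⟩
        exact ⟨m * a, trivial, mul_assoc _ _ _⟩
      · rintro _ ⟨a, -, rfl⟩
        exact L_left _ _ hxL
    rw [← key] at hzL
    obtain ⟨y, -, hy⟩ := hzL
    exact ⟨y, hy⟩
  refine zorn_superset _ fun c hcs hc' => ?_
  refine ⟨⋂₀ c, ⟨isClosed_sInter fun t ht => (hcs ht).1, ?_, fun m x hx => ?_⟩,
    fun s hs => Set.sInter_subset_of_mem hs⟩
  · obtain rfl | hcnemp := c.eq_empty_or_nonempty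
    · rw [Set.sInter_empty]
      exact Set.univ_nonempty
    convert!
      @IsCompact.nonempty_iInter_of_directed_nonempty_isCompact_isClosed _ _ _ hcnemp.coe_sort
        ((↑) : c → Set M) ?_ ?_ ?_ ?_
    · exact Set.sInter_eq_iInter
    · exact DirectedOn.directed_val (IsChain.directedOn hc'.symm)
    exacts [fun i => (hcs i.prop).2.1, fun i => (hcs i.prop).1.isCompact, fun i => (hcs i.prop).1]
  · rw [Set.mem_sInter]
    exact fun t ht => (hcs ht).2.2 m x (Set.mem_sInter.mp hx t ht)

/-- The group `z M z` of a core. -/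
def Gam {M : Type*} [Semigroup M] (K : Core M) : Type _ := {x : M // K.z * x = x ∧ x * K.z = x}

namespace Gam

variable {M : Type*} [Semigroup M] (K : Core M)

instance : One (Gam K) := ⟨⟨K.z, K.idem, K.idem⟩⟩

instance : Mul (Gam K) :=
  ⟨fun a b => ⟨a.1 * b.1, by rw [← mul_assoc, a.2.1], by rw [mul_assoc, b.2.2]⟩⟩

noncomputable instance : Inv (Gam K) :=
  ⟨fun a => ⟨K.z * (K.inv a.1).choose * K.z,
    by rw [← mul_assoc, ← mul_assoc, K.idem], by rw [mul_assoc, K.idem]⟩⟩

theorem val_mul (a b : Gam K) : (a * b).1 = a.1 * b.1 := rfl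

theorem val_one : (1 : Gam K).1 = K.z := rfl

noncomputable instance : Group (Gam K) :=
  Group.ofLeftAxioms
    (fun a b c => Subtype.ext (mul_assoc a.1 b.1 c.1))
    (fun a => Subtype.ext a.2.1)
    (fun a => by
      apply Subtype.ext
      have key : ∀ y : M, y * (K.z * a.1 * K.z) = K.z → K.z * y * K.z * a.1 = K.z := by
        intro y h
        have h1 : K.z * a.1 * K.z = a.1 := by rw [a.2.1, a.2.2]
        rw [h1] at h
        rw [mul_assoc, a.2.1, mul_assoc, h, K.idem]
      exact key _ (K.inv a.1).choose_spec)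

end Gam

end Vale.Agent.Lib.P058
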